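import Vale.Agent.P283.H207.FinalP

/-!
P283, Q1 for contractions `f : X' → Z` of pairs, with fibres of any dimension (`f = id`, birational
contractions, fibrations, and `Z` a point are all allowed), where `Z` is dominated by a
hypersurface `Y = {x₀ x₁ ⋯ x_q = g}` and the function field of `X'` is the field of invariants
`ℂ(x₁, …, x_q, z₁, …, z_k)^G` of a finite group `G`, and where `-(K_{X'} + B')` is generated over
`Z` by monomials: for every dimension `d` and every `ε` there are bounded klt complements; they
exist for all multiples `n ≥ c (1 + 1 / ε)` of a constant `c`.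
-/

namespace Vale.Agent.Results.P283.Contractions

open MvPolynomial Vale.Agent.P283.Q Vale.Agent.P283.H207

/-- Bounded klt complements: for every `d ≥ 1` and `J` there is `c ≥ 1` such that for all `ε > 0`
and all multiples `n` of `c` with `n ≥ c (1 + 1 / ε)` the following holds. Let `q + k = d`, let
`L = ℂ(x₁, …, x_q, z₁, …, z_k)`, let `G` be a finite group of automorphisms of `L` and let
`Z = Spec A`, `A ⊆ K = L^G`, have the finite cover `Y = {x₀ x₁ ⋯ x_q = g}`, where `g` is a
polynomial in the base coordinates; a subgroup of index at most `J` permutes the `x_i` up to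
scalars, acts linearly on the span of the base coordinates, and acts on the fibre coordinates by
monomial transformations (`IsCover`). Let
`f : X' → Z` be a proper morphism, where `X'` has the function field `K`, and let `(X', B')` be an
effective `ε`-lc pair such that `-r (K_{X'} + B')` is generated over `Z` by sections whose
pull-backs generate an ideal of the form `∑ᵢ 𝔪^{Mᵢ} · z^{Eᵢ}`, where `𝔪` is generated by the base
coordinates. Then `(X', B')` has a klt `n`-complement over all closed points of `Z`. -/
theorem result : ∀ d : ℕ, 0 < d → ∀ J : ℕ, ∃ c : ℕ, 0 < c ∧ ∀ ε : ℝ, 0 < ε →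
    ∀ n : ℕ, c ∣ n → (c : ℝ) * (1 + 1 / ε) ≤ n →
    ∀ q k : ℕ, q + k = d →
    ∀ (K L : Type) [Field K] [Field L] [Algebra ℂ K] [Algebra ℂ L] [Algebra K L]
      [IsScalarTower ℂ K L]
      -- the coordinates: `z_j` is a base coordinate if `P j`, otherwise a fibre coordinate
      (P S : Fin k → Prop) (x : Fin (q + 1) → L) (z : Fin k → L) (g : MvPolynomial (Fin k) ℂ)
      -- the group, and the base `Z = Spec A`
      (G : Subgroup (L ≃ₐ[ℂ] L)) (A : Subalgebra ℂ K), IsCover J P S x z g G A →
    -- a rational `d`-form `ω ≠ 0` on `X'`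
    ∀ D : Fin (q + k) → Derivation ℂ K K, (∃ f, jac D f ≠ 0) →
    -- the effective pair `(X', B')` and the proper morphism `f : X' → Z`
    ∀ (𝒞 : Set (Subalgebra ℂ K)) (B : ∀ C : Subalgebra ℂ K, QDivisor C) (r : ℕ)
      (ψ : Subalgebra ℂ K → K), IsPair D A 𝒞 B r ψ →
    -- `-(K_{X'} + B')` is generated by monomials over `Z`
    ∀ (N : ℕ) (M : Fin (N + 1) → ℕ) (E : Fin (N + 1) → Fin k → ℤ),
      (∀ i j, E i j ≠ 0 → P j → S j) → IsGeneratedP P x z M E D 𝒞 r ψ →
      -- `(X', B')` is `ε`-lc
      (∀ C ∈ 𝒞, IsEpsLC D (B C) ε) →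
        HasGlobalKltComplement D 𝒞 B n :=
  mainP

end Vale.Agent.Results.P283.Contractions
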