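import Vale.Agent.P283.H329.LinMain

/-!
# Bounded klt complements for quotients of `x₀ x₁ ⋯ x_q = g(z₁, …, z_k)` and their crepant models
-/

namespace Vale.Agent.Results.P283.CrepantModels

open MvPolynomial Vale.Agent.P283.Q

/-- Bounded klt complements: for every `d ≥ 1` there is `c ≥ 1` such that, for all `ε > 0` and all
multiples `n` of `c` with `n ≥ c (1 + 1 / ε)`, for every effective `ε`-lc pair `(X, B)` which is a
quotient, in the sense of `K + B`, of a pair `(Y, ∑ b_j div(z_j))` with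
`Y = {x₀ x₁ ⋯ x_q = g(z₁, …, z_k)}` of dimension `q + k = d`:
(1) `(X, B)` has a klt `n`-complement over every closed point (with `Z = X`);
(2) one rational function `φ` defines a klt `n`-complement of `(X, B)` on all of `X`, and a klt
`n`-complement on all of `X'` of every crepant model `(X', B')` of `(X, B)`, that is, for every
birational `f : X' → X` and `B' ≥ 0` with `K_{X'} + B' = f^* (K_X + B)`.
(3) The linear growth of `n` in `1 / ε` is necessary: if `B` has the coefficient `1 - δ` along a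
prime divisor through a point, then `n ≥ 1 / δ` for every klt `n`-complement over this point. -/
theorem result :
    (∀ d : ℕ, 0 < d → ∃ c : ℕ, 0 < c ∧
      ∀ ε : ℝ, 0 < ε → ∀ n : ℕ, c ∣ n → (c : ℝ) * (1 + 1 / ε) ≤ n →
      ∀ q k : ℕ, q + k = d → ∀ (K L : Type) [Field K] [Field L] [Algebra ℂ K] [Algebra ℂ L]
        [Algebra K L] [IsScalarTower ℂ K L] (x : Fin (q + 1) → L) (z : Fin k → L)
        (g : MvPolynomial (Fin k) ℂ) (b : Fin k → ℚ) (G : Subgroup (L ≃ₐ[ℂ] L))
        (A : Subalgebra ℂ K), IsQuotient x z g b G A →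
      ∀ D : Fin (q + k) → Derivation ℂ K K, (∃ f, jac D f ≠ 0) →
      ∀ B : QDivisor A, (∀ p, 0 ≤ B.coeff p) → IsCrepant x z b A D B → IsEpsLC D B ε →
      (∀ m : Ideal A, m.IsMaximal → HasKltComplement D B n m) ∧
      ∃ φ : K, IsKltComplement D B n φ ∧
        ∀ (𝒞 : Set (Subalgebra ℂ K)) (β : AddValuation K (WithTop ℤ) → ℚ),
          IsCrepantModel D B 𝒞 β → IsKltComplementOn D 𝒞 β n φ) ∧
    (∀ (d : ℕ) (K : Type) [Field K] [Algebra ℂ K] (A : Subalgebra ℂ K)
      (D : Fin d → Derivation ℂ K K) (B : QDivisor A) (n : ℕ) (z : Ideal A), 0 < n →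
      HasKltComplement D B n z →
      ∀ (u : AddValuation K (WithTop ℤ)) (p : Ideal A) (m : ℤ), IsPrimeDivisorOn A d u p → p ≤ z →
        FormOrder u D m → 1 ≤ (n : ℚ) * (1 - B.coeff p)) :=
  ⟨Vale.Agent.P283.main_lin, fun _ _ _ _ _ _ _ _ _ hn h u p m hu hp hm =>
    Vale.Agent.P283.le_of_complement hn h u p m hu hp hm⟩

end Vale.Agent.Results.P283.CrepantModels
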